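import Claimed.Agent.R282.S2C.P.It
import Claimed.Agent.R282.S2C.B.Stab

/-!
# 2C / BP-G1: definitions for `generic_family`

DISCRETE DATA of an itinerary `l` : the list `disc l` of entries `(⌊τ⌋₊, [τ is a break], new frame)`.
Everything else (velocity differences `dDel`, constants `dC`, `dB`, end frame `endFr`) is a function of
the discrete data; the only continuous parameters are the fractional parts `rList l` of the non-break times.

BALANCE.  Running all the jumps of `l` from the state `S` gives the state `runIt θ S l` with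
  `fr = endFr S.fr (disc l)`,   `c = S.c + dC θ S.fr (disc l) + lcomb (rList l) (dDel θ S.fr (disc l))`.
-/

set_option autoImplicit false

namespace Claimed.Agent.R282

variable {n : ℕ}

/-- discrete entry: floor of the time, break flag, new frame -/
abbrev DEnt (n : ℕ) := ℕ × Bool × Fr n

open Classical in
/-- discrete entry of a jump -/
noncomputable def discE (p : ℝ × Fr n) : DEnt n := (⌊p.1⌋₊, decide (IsBreak p.1), p.2)

/-- discrete data of an itinerary -/
noncomputable def disc (l : List (ℝ × Fr n)) : List (DEnt n) := l.map discE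

/-- last frame -/
def endFr : Fr n → List (DEnt n) → Fr n
  | a, [] => a
  | _, e :: L => endFr e.2.2 L

/-- velocity differences at the non-break entries -/
def dDel (θ : Shape n) : Fr n → List (DEnt n) → List (Vec n)
  | _, [] => []
  | a, e :: L =>
      (if e.2.1 then [] else [a (θ.getD e.1 0) - e.2.2 (θ.getD e.1 0)]) ++ dDel θ e.2.2 L

/-- the constant part of the displacement caused by the jumps -/
def dC (θ : Shape n) : Fr n → List (DEnt n) → Vec n
  | _, [] => 0
  | a, e :: L => (a (θ.val e.1) - e.2.2 (θ.val e.1)) + dC θ e.2.2 L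

/-- the constant of the balance equation -/
def dB (θ : Shape n) (a : Fr n) (L : List (DEnt n)) : Vec n := dC θ a L + endFr a L θ.sum

open Classical in
/-- fractional parts of the non-break times -/
noncomputable def rList : List (ℝ × Fr n) → List ℝ
  | [] => []
  | p :: l => (if IsBreak p.1 then [] else [p.1 - (⌊p.1⌋₊ : ℝ)]) ++ rList l

/-- linear combination of a list of vectors -/
def lcomb (cs : List ℝ) (vs : List (Vec n)) : Vec n := (List.zipWith (fun c v => c • v) cs vs).sum

/-- the state after all the jumps -/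
def runIt (θ : Shape n) : ASt n → List (ℝ × Fr n) → ASt n
  | S, [] => S
  | S, p :: l => runIt θ (S.jump θ p.1 p.2) l

open Classical in
/-- a linear map sending the list `vs` to the list `us` (if there is one) -/
noncomputable def linExt (vs us : List (Vec n)) : Vec n →ₗ[ℝ] Vec n :=
  if h : ∃ A : Vec n →ₗ[ℝ] Vec n, vs.map A = us then h.choose else 0

/-- transpose of a linear map, applied to a vector -/
def adjV (A : Vec n →ₗ[ℝ] Vec n) (γ : Vec n) : Vec n := fun i => dot γ (A (Pi.single i 1))

namespace RDatum

variable (D : RDatum n)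

/-- `ν` is a nonzero semisimple vector orthogonal to `vs` -/
def IsNu (vs : List (Vec n)) (ν : Vec n) : Prop :=
  ν ≠ 0 ∧ (∀ v ∈ vs, dot ν v = 0) ∧ ∀ z : Vec n, (∀ β ∈ D.roots, dot z β = 0) → dot z ν = 0

open Classical in
/-- a nonzero semisimple vector orthogonal to `vs` (if there is one) -/
noncomputable def nuOf (vs : List (Vec n)) : Vec n :=
  if h : ∃ ν, D.IsNu vs ν then h.choose else 0

/-- the finite set of possible discrete data -/
def FamData (θ : Shape n) : Set (List (DEnt n)) :=
  {L | L.length ≤ n + θ.length ∧ ∀ e ∈ L, e.1 < θ.length ∧ e.2.2 ∈ D.W}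

/-- functional of type (i): `ν · (g xi - lam - B)` -/
noncomputable def famI (θ : Shape n) (u0 g : Fr n) (L : List (DEnt n)) : AffF n :=
  ⟨- D.nuOf (dDel θ u0 L), g⁻¹ (D.nuOf (dDel θ u0 L)), - dot (D.nuOf (dDel θ u0 L)) (dB θ u0 L)⟩

end RDatum

/-- the images of the velocity differences that produce the position of the site `e` -/
def famUs (θ : Shape n) (u0 : Fr n) (L₁ : List (DEnt n)) (e : DEnt n) (L₂ : List (DEnt n)) :
    List (Vec n) :=
  dDel θ u0 L₁ ++ ((if e.2.1 then [] else [endFr u0 L₁ (θ.getD e.1 0)]) ++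
    List.replicate (dDel θ e.2.2 L₂).length 0)

/-- the linear map recovering the position of the site `e` -/
noncomputable def famA (θ : Shape n) (u0 : Fr n) (L₁ : List (DEnt n)) (e : DEnt n)
    (L₂ : List (DEnt n)) : Vec n →ₗ[ℝ] Vec n :=
  linExt (dDel θ u0 (L₁ ++ e :: L₂)) (famUs θ u0 L₁ e L₂)

/-- the constant part of the position of the site `e` -/
def famK (θ : Shape n) (u0 : Fr n) (L₁ : List (DEnt n)) (e : DEnt n) : Vec n :=
  dC θ u0 L₁ + endFr u0 L₁ (θ.val e.1)

/-- functional of type (ii): `γ · (lam + K + A (g xi - lam - B))` -/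
noncomputable def famII (θ : Shape n) (u0 g : Fr n) (L₁ : List (DEnt n)) (e : DEnt n)
    (L₂ : List (DEnt n)) (γ : Vec n) : AffF n :=
  ⟨γ - adjV (famA θ u0 L₁ e L₂) γ, g⁻¹ (adjV (famA θ u0 L₁ e L₂) γ),
    dot γ (famK θ u0 L₁ e) - dot γ (famA θ u0 L₁ e L₂ (dB θ u0 (L₁ ++ e :: L₂)))⟩

namespace RDatum

variable (D : RDatum n)

/-- all candidate functionals -/
def famSet (θ : Shape n) : Set (AffF n) :=
  {f | (∃ u0 ∈ D.W, ∃ g ∈ D.W, ∃ L ∈ D.FamData θ, f = D.famI θ u0 g L) ∨
    ∃ u0 ∈ D.W, ∃ g ∈ D.W, ∃ L₁ e L₂, L₁ ++ e :: L₂ ∈ D.FamData θ ∧ ∃ γ ∈ D.roots,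
      f = famII θ u0 g L₁ e L₂ γ}

end RDatum

/-- forces the on-demand equation lemmas to be stored HERE (else several later modules store their own copies,
which collide in the joint check of the grader) -/
theorem s2cFamDefs_forced_eqns : True := by
  have := @endFr.eq_def
  have := @endFr.eq_1
  have := @dDel.eq_def
  have := @dDel.eq_1
  have := @dC.eq_def
  have := @dC.eq_1
  have := @rList.eq_def
  have := @rList.eq_1
  have := @runIt.eq_def
  have := @runIt.eq_1
  trivial

end Claimed.Agent.R282
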