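import Claimed.Agent.R282.S2C.G.FamRun

/-!
# 2C / BP-G1, leaf L-G1d: finiteness of the discrete data

* `famData_finite`: the alphabet `E = {e : DEnt n | e.1 < T ∧ e.2.2 ∈ W}` is finite (`D.finW`; product of
  `Set.finite_lt_nat`, `Set.finite_univ` (Bool), `Set.toFinite`/`Set.finite_coe_iff`).  Lists of length `≤ N` over the finite TYPE
  `↥E` are finite (`List.finite_length_le`); `FamData` is contained in the image under `List.map Subtype.val`
  (lift a list with `List.attachWith`/`List.pmap`, or `List.map_subtype…`, or `Set.range_list_map_coe`).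
* `famSet_finite`: finite unions/images: `famSet ⊆ image of (W × W × Data) ∪ image of (W × W × Data × Data-splits × roots)`.
  For the second part: `L₁`, `L₂` are in `FamData` themselves (shorter lists, sub-membership) and `e ∈ E`.
* `disc_mem_famData`: `l.length = #non-breaks + #breaks` (`List.length_eq_countP_add_countP`);
  `#non-breaks = (dDel θ u0 (disc l)).length ≤ n` (`LinearIndependent.fintype_card_le_finrank`, `Module.finrank_fin_fun`);
  the break times are strictly increasing integers in `(0, T)`: their floors form a strictly increasing list of naturals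
  `< T`, so there are at most `T` of them (`List.Nodup`, `List.toFinset_card_of_nodup`, `Finset.card_le_card` into `Finset.range T`).
  `⌊τ⌋₊ < T` from `Nat.floor_lt`.
-/

set_option autoImplicit false

namespace Claimed.Agent.R282.RDatum

variable {n : ℕ} (D : RDatum n)

theorem c2g_finite_lists {α : Type*} {E : Set α} (hE : E.Finite) (N : ℕ) :
    {L : List α | L.length ≤ N ∧ ∀ e ∈ L, e ∈ E}.Finite := by
  induction N with
  | zero =>
    apply Set.Finite.subset (Set.finite_singleton [])
    rintro L ⟨h, -⟩
    exact List.eq_nil_of_length_eq_zero (Nat.le_zero.1 h)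
  | succ N ih =>
    apply Set.Finite.subset ((Set.finite_singleton []).union (Set.Finite.image2 List.cons hE ih))
    rintro L ⟨h1, h2⟩
    cases L with
    | nil =>
      left
      rfl
    | cons e L =>
      right
      exact ⟨e, h2 e (List.mem_cons_self ..), L,
        ⟨by simpa using h1, fun e' he' => h2 e' (List.mem_cons_of_mem _ he')⟩, rfl⟩

theorem c2g_W_finite : (D.W : Set (Fr n)).Finite := by
  haveI := D.finW
  exact Set.toFinite _

theorem c2g_alpha_finite (θ : Shape n) : {e : DEnt n | e.1 < θ.length ∧ e.2.2 ∈ D.W}.Finite := by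
  apply Set.Finite.subset ((Set.finite_Iio θ.length).prod
    ((Set.finite_univ : (Set.univ : Set Bool).Finite).prod D.c2g_W_finite))
  rintro ⟨k, b, a⟩ ⟨h1, h2⟩
  exact ⟨h1, Set.mem_univ _, h2⟩

theorem famData_finite (θ : Shape n) : (D.FamData θ).Finite :=
  c2g_finite_lists (D.c2g_alpha_finite θ) (n + θ.length)

theorem famSet_finite (θ : Shape n) : (D.famSet θ).Finite := by
  have hW := D.c2g_W_finite
  have hF := D.famData_finite θ
  have hE := D.c2g_alpha_finite θ
  have h1 : ((fun q : Fr n × Fr n × List (DEnt n) => D.famI θ q.1 q.2.1 q.2.2) ''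
      ((D.W : Set (Fr n)) ×ˢ ((D.W : Set (Fr n)) ×ˢ D.FamData θ))).Finite :=
    (hW.prod (hW.prod hF)).image _
  have h2 : ((fun q : Fr n × Fr n × List (DEnt n) × DEnt n × List (DEnt n) × Vec n =>
      famII θ q.1 q.2.1 q.2.2.1 q.2.2.2.1 q.2.2.2.2.1 q.2.2.2.2.2) ''
      ((D.W : Set (Fr n)) ×ˢ ((D.W : Set (Fr n)) ×ˢ (D.FamData θ ×ˢ
        ({e : DEnt n | e.1 < θ.length ∧ e.2.2 ∈ D.W} ×ˢ (D.FamData θ ×ˢ
          (D.roots : Set (Vec n)))))))).Finite :=
    (hW.prod (hW.prod (hF.prod (hE.prod (hF.prod D.roots.finite_toSet))))).image _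
  apply Set.Finite.subset (h1.union h2)
  rintro f (⟨u0, hu0, g, hg, L, hL, rfl⟩ | ⟨u0, hu0, g, hg, L₁, e, L₂, hL, γ, hγ, rfl⟩)
  · left
    exact ⟨(u0, g, L), ⟨hu0, hg, hL⟩, rfl⟩
  · right
    refine ⟨(u0, g, L₁, e, L₂, γ), ⟨hu0, hg, ⟨?_, ?_⟩, ?_, ⟨?_, ?_⟩, hγ⟩, rfl⟩
    · have := hL.1
      rw [List.length_append] at this
      exact le_trans (Nat.le_add_right _ _) this
    · intro e' he'
      exact hL.2 e' (List.mem_append_left _ he')
    · exact hL.2 e (List.mem_append_right _ (List.mem_cons_self ..))
    · have := hL.1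
      rw [List.length_append, List.length_cons] at this
      show L₂.length ≤ n + θ.length
      omega
    · intro e' he'
      exact hL.2 e' (List.mem_append_right _ (List.mem_cons_of_mem _ he'))

theorem c2g_dDel_length (θ : Shape n) (a : Fr n) (L : List (DEnt n)) :
    (dDel θ a L).length = L.countP (fun e => !e.2.1) := by
  induction L generalizing a with
  | nil => rfl
  | cons e L ih =>
    rw [dDel, List.length_append, ih, List.countP_cons, add_comm]
    cases e.2.1 <;> simp

theorem dDel_length_le {θ : Shape n} {a : Fr n} {L : List (DEnt n)} (h : IndepL (dDel θ a L)) :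
    L.countP (fun e => !e.2.1) ≤ n := by
  rw [← c2g_dDel_length θ a L]
  have h : LinearIndependent ℝ (fun i : Fin (dDel θ a L).length => (dDel θ a L).get i) := h
  have := h.fintype_card_le_finrank
  simpa using this

theorem c2g_break_count (T : ℕ) : ∀ (l : List (ℝ × Fr n)) (m : ℤ), m ≤ T →
    (∀ p ∈ l, IsBreak p.1 → (m : ℝ) ≤ p.1) → (∀ p ∈ l, p.1 < (T : ℝ)) →
    l.Pairwise (fun p q => p.1 < q.1) → (((disc l).countP (fun e => e.2.1) : ℕ) : ℤ) + m ≤ T
  | [], m, hm, _, _, _ => by simpa [disc] using hm
  | p :: l, m, hm, hlow, hT, hs => by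
    classical
    rw [List.pairwise_cons] at hs
    rw [disc_cons, List.countP_cons]
    have hT' : ∀ q ∈ l, q.1 < (T : ℝ) := fun q hq => hT q (List.mem_cons_of_mem _ hq)
    by_cases hb : IsBreak p.1
    · have e1 : (discE p).2.1 = true := by simp [discE, hb]
      rw [if_pos e1]
      obtain ⟨k, hk⟩ := hb
      have hmk : m ≤ k := by
        have := hlow p (List.mem_cons_self ..) ⟨k, hk⟩
        rw [← hk] at this
        exact_mod_cast this
      have hkT : k + 1 ≤ T := by
        have := hT p (List.mem_cons_self ..)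
        rw [← hk] at this
        have h2 : k < (T : ℤ) := by exact_mod_cast this
        omega
      have ih := c2g_break_count T l (k + 1) hkT (by
        rintro q hq ⟨j, hj⟩
        have := hs.1 q hq
        rw [← hk, ← hj] at this
        have h2 : k < j := by exact_mod_cast this
        rw [← hj]
        exact_mod_cast h2) hT' hs.2
      push_cast
      omega
    · have e1 : ¬ (discE p).2.1 = true := by simp [discE, hb]
      rw [if_neg e1, add_zero]
      exact c2g_break_count T l m hm (fun q hq => hlow q (List.mem_cons_of_mem _ hq)) hT' hs.2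

theorem break_count_le {θ : Shape n} {u0 : Fr n} {l : List (ℝ × Fr n)} (hNF : IsNF θ u0 l) :
    (disc l).countP (fun e => e.2.1) ≤ θ.length := by
  have := c2g_break_count θ.length l 0 (by positivity)
    (fun p hp _ => by simpa using (hNF.interior p hp).1.le) (fun p hp => (hNF.interior p hp).2)
    hNF.strict
  omega

theorem disc_mem_famData {θ : Shape n} {u0 : Fr n} {l : List (ℝ × Fr n)} (hIt : D.IsIt θ u0 l)
    (hNF : IsNF θ u0 l) (hInd : IndepL (dDel θ u0 (disc l))) : disc l ∈ D.FamData θ := by
  constructor
  · rw [List.length_eq_countP_add_countP (fun e : DEnt n => e.2.1) (l := disc l)]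
    have h1 := break_count_le hNF
    have h2 := dDel_length_le hInd
    have h3 : (disc l).countP (fun e => decide ¬ (e.2.1 = true)) =
        (disc l).countP (fun e => !e.2.1) := by
      congr 1
      funext e
      cases e.2.1 <;> simp
    omega
  · intro e he
    obtain ⟨p, hp, rfl⟩ := List.mem_map.1 he
    exact ⟨(Nat.floor_lt (hNF.interior p hp).1.le).2 (hNF.interior p hp).2, hIt.fr_mem p hp⟩

end Claimed.Agent.R282.RDatum
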