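import Claimed.Agent.R282.S2C.G.FamDefs

/-!
# 2C / BP-G1, leaf L-G1a: linear algebra of lists of vectors

All statements are elementary (inductions on the lists).
* `linExt_spec`: `IndepL vs` is `LinearIndependent ℝ (fun i : Fin vs.length => vs.get i)`.  Extend to a basis
  (`Basis.extend` / `LinearIndependent.extend`), or use `LinearMap.exists_extend` applied to
  `(Basis.span h).constr ℝ (fun i => us.get (i.cast hl.symm))`, then `List.ext_get`.
  Unfold `linExt` with `dif_pos` and `Exists.choose_spec`.
* `dot_adjV`: write `x = ∑ i, x i • Pi.single i 1` (`pi_eq_sum_univ'` / `LinearMap.pi_apply_eq_sum_univ`), use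
  `map_sum`, `map_smul` and unfold `dot`.
-/

set_option autoImplicit false

namespace Claimed.Agent.R282

variable {n : ℕ}

theorem lcomb_nil_left (vs : List (Vec n)) : lcomb [] vs = 0 := by
  simp [lcomb]

theorem lcomb_nil_right (cs : List ℝ) : lcomb cs ([] : List (Vec n)) = 0 := by
  simp [lcomb]

theorem lcomb_cons (c : ℝ) (cs : List ℝ) (v : Vec n) (vs : List (Vec n)) :
    lcomb (c :: cs) (v :: vs) = c • v + lcomb cs vs := by
  simp [lcomb]

theorem lcomb_append {cs₁ cs₂ : List ℝ} {vs₁ vs₂ : List (Vec n)} (h : cs₁.length = vs₁.length) :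
    lcomb (cs₁ ++ cs₂) (vs₁ ++ vs₂) = lcomb cs₁ vs₁ + lcomb cs₂ vs₂ := by
  rw [lcomb, List.zipWith_append h, List.sum_append]
  rfl

theorem lcomb_map (A : Vec n →ₗ[ℝ] Vec n) (cs : List ℝ) (vs : List (Vec n)) :
    A (lcomb cs vs) = lcomb cs (vs.map A) := by
  induction cs generalizing vs with
  | nil => rw [lcomb_nil_left, lcomb_nil_left, map_zero]
  | cons c cs ih =>
    cases vs with
    | nil => rw [List.map_nil, lcomb_nil_right, map_zero]
    | cons v vs => rw [List.map_cons, lcomb_cons, lcomb_cons, map_add, map_smul, ih]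

theorem lcomb_replicate_zero (cs : List ℝ) (k : ℕ) :
    lcomb cs (List.replicate k (0 : Vec n)) = 0 := by
  induction cs generalizing k with
  | nil => rw [lcomb_nil_left]
  | cons c cs ih =>
    cases k with
    | zero => rw [List.replicate_zero, lcomb_nil_right]
    | succ k => rw [List.replicate_succ, lcomb_cons, smul_zero, zero_add, ih]

theorem dot_lcomb_eq_zero {ν : Vec n} {vs : List (Vec n)} (h : ∀ v ∈ vs, dot ν v = 0)
    (cs : List ℝ) : dot ν (lcomb cs vs) = 0 := by
  induction cs generalizing vs with
  | nil => rw [lcomb_nil_left, dot_zero_right]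
  | cons c cs ih =>
    cases vs with
    | nil => rw [lcomb_nil_right, dot_zero_right]
    | cons v vs =>
      rw [lcomb_cons, dot_add_right, dot_smul_right, h v (List.mem_cons_self ..), mul_zero, zero_add]
      exact ih fun w hw => h w (List.mem_cons_of_mem _ hw)

theorem dot_adjV (A : Vec n →ₗ[ℝ] Vec n) (γ x : Vec n) : dot (adjV A γ) x = dot γ (A x) := by
  have hx : A x = ∑ i, x i • A (Pi.single i 1) := by
    rw [LinearMap.pi_apply_eq_sum_univ A x]
    apply Finset.sum_congr rfl
    intro i _
    congr 2
    funext j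
    rw [Pi.single_apply]
    by_cases hij : i = j
    · rw [if_pos hij, if_pos hij.symm]
    · rw [if_neg hij, if_neg (fun h => hij h.symm)]
  rw [hx]
  have h2 : dot γ (∑ i, x i • A (Pi.single i 1)) = ∑ i, x i * dot γ (A (Pi.single i 1)) := by
    have : ∀ s : Finset (Fin n), dot γ (∑ i ∈ s, x i • A (Pi.single i 1)) =
        ∑ i ∈ s, x i * dot γ (A (Pi.single i 1)) := by
      intro s
      classical
      induction s using Finset.induction_on with
      | empty => simp [dot_zero_right]
      | insert a s ha ih =>
        rw [Finset.sum_insert ha, Finset.sum_insert ha, dot_add_right, dot_smul_right, ih]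
    exact this _
  rw [h2]
  unfold dot adjV
  apply Finset.sum_congr rfl
  intro i _
  rw [mul_comm]
  rfl

theorem linExt_spec {vs us : List (Vec n)} (h : IndepL vs) (hl : us.length = vs.length) :
    vs.map (linExt vs us) = us := by
  have h : LinearIndependent ℝ (fun i : Fin vs.length => vs.get i) := h
  have hex : ∃ A : Vec n →ₗ[ℝ] Vec n, vs.map A = us := by
    obtain ⟨A, hA⟩ := LinearMap.exists_extend
      ((Module.Basis.span h).constr ℝ (fun i : Fin vs.length => us.get (i.cast hl.symm)))
    refine ⟨A, ?_⟩
    apply List.ext_get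
    · rw [List.length_map, hl]
    · intro i h1 h2
      rw [List.get_eq_getElem, List.get_eq_getElem, List.getElem_map]
      have hi : i < vs.length := by rwa [List.length_map] at h1
      have hmem : vs[i] ∈ Submodule.span ℝ (Set.range fun j : Fin vs.length => vs.get j) :=
        Submodule.subset_span ⟨⟨i, hi⟩, rfl⟩
      have e1 : A vs[i] = (A.comp (Submodule.subtype _)) ⟨vs[i], hmem⟩ := rfl
      rw [e1, hA]
      have e2 : (⟨vs[i], hmem⟩ : Submodule.span ℝ (Set.range fun j : Fin vs.length => vs.get j)) =
          Module.Basis.span h ⟨i, hi⟩ := by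
        apply Subtype.ext
        rw [Module.Basis.span_apply]
        rfl
      rw [e2, Module.Basis.constr_basis]
      rfl
  rw [linExt, dif_pos hex]
  exact hex.choose_spec

end Claimed.Agent.R282
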