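import Claimed.Agent.R282.S2C.G.FamNu
import Claimed.Agent.R282.S2C.G.FamLin

/-!
# 2C / BP-G1, leaf L-G1e: evaluation and properness of the functionals

Tools: `AffF.eval`, `dot_inv` (`dot (g x) y = dot x (g⁻¹ y)`), `dot_comm`, `dot_add_*`, `dot_sub_*`, `dot_neg_*`, `dot_adjV`, `map_sub`.
* `famI_proper`: direction `(z₁, z₂) = (ν, 0)`; `Central ν 0 0` is `dot z ν = 0` for `z ⊥ roots` (third part of `IsNu`);
  value `- dot ν ν ≠ 0` (`dot_self_eq_zero`).
* `famII_proper`: direction `(γ, g⁻¹ γ)`; `Central γ 0 (g⁻¹ γ)`: both are roots (`inv_map_roots`);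
  value `dot γ γ - dot w γ + dot (g⁻¹ w) (g⁻¹ γ) = 2` (`D.isom g⁻¹`, `D.norm_two`), `w = adjV A γ`.
-/

set_option autoImplicit false

namespace Claimed.Agent.R282.RDatum

variable {n : ℕ} (D : RDatum n)

theorem famI_eval (θ : Shape n) (u0 : Fr n) {g : Fr n} (hg : g ∈ D.W) (L : List (DEnt n))
    (lam xi : Vec n) :
    (D.famI θ u0 g L).eval (lam, xi) = dot (D.nuOf (dDel θ u0 L)) (g xi - lam - dB θ u0 L) := by
  simp only [AffF.eval, famI]
  rw [dot_sub_right, dot_sub_right, dot_neg_left, dot_comm (g⁻¹ _) xi, ← D.dot_inv hg,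
    dot_comm (g xi)]
  ring

theorem famI_proper (θ : Shape n) (u0 g : Fr n) (L : List (DEnt n))
    (h : ∃ ν, D.IsNu (dDel θ u0 L) ν) : D.ProperF (D.famI θ u0 g L) := by
  obtain ⟨h1, _, h3⟩ := D.nuOf_spec h
  refine ⟨D.nuOf (dDel θ u0 L), 0, ?_, ?_⟩
  · intro z hz
    rw [dot_zero_right, h3 z hz, add_zero]
  · simp only [famI]
    rw [dot_zero_right, add_zero, dot_neg_left]
    intro h0
    exact h1 (dot_self_eq_zero.1 (neg_eq_zero.1 h0))

theorem famII_eval (θ : Shape n) (u0 : Fr n) {g : Fr n} (hg : g ∈ D.W) (L₁ : List (DEnt n))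
    (e : DEnt n) (L₂ : List (DEnt n)) (γ lam xi : Vec n) :
    (famII θ u0 g L₁ e L₂ γ).eval (lam, xi) =
      dot γ (lam + famK θ u0 L₁ e +
        famA θ u0 L₁ e L₂ (g xi - lam - dB θ u0 (L₁ ++ e :: L₂))) := by
  simp only [AffF.eval, famII]
  rw [dot_add_right, dot_add_right, map_sub, map_sub, dot_sub_right, dot_sub_right, dot_sub_left,
    dot_adjV, dot_comm (g⁻¹ _) xi, ← D.dot_inv hg, dot_comm (g xi), dot_adjV]
  ring

theorem famII_proper (θ : Shape n) (u0 : Fr n) {g : Fr n} (hg : g ∈ D.W) (L₁ : List (DEnt n))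
    (e : DEnt n) (L₂ : List (DEnt n)) {γ : Vec n} (hγ : γ ∈ D.roots) :
    D.ProperF (famII θ u0 g L₁ e L₂ γ) := by
  refine ⟨γ, g⁻¹ γ, ?_, ?_⟩
  · intro z hz
    rw [hz _ (D.inv_map_roots hg hγ), hz γ hγ, dot_zero_right, add_zero]
  · simp only [famII]
    rw [D.isom _ (D.W.inv_mem hg), dot_sub_left, D.norm_two γ hγ]
    intro h0
    linarith

end Claimed.Agent.R282.RDatum
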