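import Claimed.Agent.R282.S2C.G.FamDefs

/-!
# 2C / BP-G1, leaf L-G1b: the vector `ν`

* `centre_fix`: `z ⊥ roots` lies in the closed chamber, and so does `g z` (`dot (g z) β = dot z (g⁻¹ β)` by
  `dot_inv`, `inv_map_roots`); conclude with `cham_fix` (S2C/B/Stab).
* `dDel_centre`: induction on `L` generalising `a`; `dot z (a x) = dot (a⁻¹ z) x = dot z x` (`dot_comm`, `dot_inv`,
  `centre_fix` for `a⁻¹`), so `dot z (a x - b x) = 0`.
* `exists_isNu`: let `M = span vs`, `Z = {z | z ⊥ roots}` (a submodule).  `β ∉ M ⊔ Z`: if `β = m + z` then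
  `dot z z = dot z β - dot z m = 0`, so `z = 0` (`dot_self_eq_zero`) and `β = m ∈ M`.  Hence `M ⊔ Z < ⊤` and there is
  a linear form `φ ≠ 0` vanishing on it (`Submodule.exists_dual_map_eq_bot_of_notMem` or
  `Submodule.exists_le_ker_of_lt_top`); `ν i := φ (Pi.single i 1)`, `dot ν x = φ x`.
-/

set_option autoImplicit false

namespace Claimed.Agent.R282.RDatum

variable {n : ℕ} (D : RDatum n)

theorem centre_fix {z : Vec n} (hz : ∀ β ∈ D.roots, dot z β = 0) {g : Fr n} (hg : g ∈ D.W) :
    g z = z := by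
  apply D.cham_fix (fun β hβ => (hz β hβ.1).ge) hg
  intro β hβ
  rw [D.dot_inv hg, hz _ (D.inv_map_roots hg hβ.1)]

theorem c2g_centre_dot {z : Vec n} (hz : ∀ β ∈ D.roots, dot z β = 0) {a : Fr n} (ha : a ∈ D.W)
    (x : Vec n) : dot z (a x) = dot z x := by
  rw [dot_comm, D.dot_inv ha, D.centre_fix hz (D.W.inv_mem ha), dot_comm]

theorem dDel_centre (θ : Shape n) {z : Vec n} (hz : ∀ β ∈ D.roots, dot z β = 0) {a : Fr n}
    (ha : a ∈ D.W) {L : List (DEnt n)} (hL : ∀ e ∈ L, e.2.2 ∈ D.W) :
    ∀ v ∈ dDel θ a L, dot z v = 0 := by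
  induction L generalizing a with
  | nil =>
    intro v hv
    exact absurd hv List.not_mem_nil
  | cons e L ih =>
    intro v hv
    have he := hL e (List.mem_cons_self ..)
    rw [dDel, List.mem_append] at hv
    rcases hv with hv | hv
    · split_ifs at hv with hb
      · exact absurd hv List.not_mem_nil
      · rw [List.mem_singleton] at hv
        rw [hv, dot_sub_right, D.c2g_centre_dot hz ha, D.c2g_centre_dot hz he, sub_self]
    · exact ih he (fun e' he' => hL e' (List.mem_cons_of_mem _ he')) v hv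

theorem exists_isNu {vs : List (Vec n)}
    (hc : ∀ z : Vec n, (∀ β ∈ D.roots, dot z β = 0) → ∀ v ∈ vs, dot z v = 0)
    {β : Vec n} (hβ : β ∈ D.roots) (hn : β ∉ Submodule.span ℝ {x | x ∈ vs}) :
    ∃ ν, D.IsNu vs ν := by
  -- the centre as a submodule
  let Z : Submodule ℝ (Vec n) :=
    { carrier := {z | ∀ β ∈ D.roots, dot z β = 0}
      add_mem' := by
        intro a b ha hb β hβ
        rw [dot_add_left, ha β hβ, hb β hβ, add_zero]
      zero_mem' := fun β _ => dot_zero_left β
      smul_mem' := by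
        intro r a ha β hβ
        rw [dot_smul_left, ha β hβ, mul_zero] }
  have hZM : ∀ z ∈ Z, ∀ m ∈ Submodule.span ℝ {x | x ∈ vs}, dot z m = 0 := by
    intro z hz m hm
    induction hm using Submodule.span_induction with
    | mem v hv => exact hc z hz v hv
    | zero => exact dot_zero_right z
    | add v w _ _ h1 h2 => rw [dot_add_right, h1, h2, add_zero]
    | smul r v _ h1 => rw [dot_smul_right, h1, mul_zero]
  have hnot : β ∉ Submodule.span ℝ {x | x ∈ vs} ⊔ Z := by
    intro hmem
    obtain ⟨m, hm, z, hz, he⟩ := Submodule.mem_sup.1 hmem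
    have h1 : dot z z = 0 := by
      have : z = β - m := by rw [← he]; abel
      have h2 : dot z z = dot z (β - m) := by rw [← this]
      rw [h2, dot_sub_right, hz β hβ, hZM z hz m hm, sub_zero]
    rw [dot_self_eq_zero.1 h1, add_zero] at he
    exact hn (he ▸ hm)
  have hlt : Submodule.span ℝ {x | x ∈ vs} ⊔ Z < ⊤ :=
    lt_top_iff_ne_top.2 fun h => hnot (h ▸ Submodule.mem_top)
  obtain ⟨φ, hφ, hle⟩ := Submodule.exists_le_ker_of_lt_top _ hlt
  have hdot : ∀ x : Vec n, dot (fun i => φ (Pi.single i 1)) x = φ x := by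
    intro x
    have hx : φ x = ∑ i, x i • φ (Pi.single i 1) := by
      rw [LinearMap.pi_apply_eq_sum_univ φ x]
      apply Finset.sum_congr rfl
      intro i _
      congr 2
      funext j
      rw [Pi.single_apply]
      by_cases hij : i = j
      · rw [if_pos hij, if_pos hij.symm]
      · rw [if_neg hij, if_neg (fun h => hij h.symm)]
    rw [hx]
    unfold dot
    apply Finset.sum_congr rfl
    intro i _
    rw [smul_eq_mul, mul_comm]
  refine ⟨fun i => φ (Pi.single i 1), ?_, ?_, ?_⟩
  · intro h0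
    apply hφ
    apply LinearMap.ext
    intro x
    rw [← hdot x, h0, dot_zero_left]
    rfl
  · intro v hv
    rw [hdot]
    exact hle (Submodule.mem_sup_left (Submodule.subset_span hv))
  · intro z hz
    rw [dot_comm, hdot]
    exact hle (Submodule.mem_sup_right hz)

theorem nuOf_spec {vs : List (Vec n)} (h : ∃ ν, D.IsNu vs ν) : D.IsNu vs (D.nuOf vs) := by
  rw [nuOf, dif_pos h]
  exact h.choose_spec

end Claimed.Agent.R282.RDatum
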