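import Claimed.Agent.R282.S2C.G.FamLin

/-!
# 2C / BP-G1, leaf L-G1c: the state machine in terms of the discrete data

All statements are inductions on the list, generalising the state / the frame.
* `runIt_c`: one jump adds `a (η τ) - v (η τ)` to `c`; with `k = ⌊τ⌋₊`, `Shape.val_piece θ k (Nat.floor_le h0)
  (Nat.lt_floor_add_one τ).le : η τ = η k + (τ - k) • θ.getD k 0`.  At a break `τ - k = 0`
  (`IsBreak τ`, `0 ≤ τ` ⇒ `(⌊τ⌋₊ : ℝ) = τ`).  Split with `by_cases hb : IsBreak p.1`, `simp [discE, hb]`,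
  `lcomb_cons`, `map_add`, `map_smul`, finish with `abel` / `module`.
-/

set_option autoImplicit false

namespace Claimed.Agent.R282

variable {n : ℕ}

theorem disc_append (l₁ l₂ : List (ℝ × Fr n)) : disc (l₁ ++ l₂) = disc l₁ ++ disc l₂ :=
  List.map_append

theorem disc_cons (p : ℝ × Fr n) (l : List (ℝ × Fr n)) : disc (p :: l) = discE p :: disc l := rfl

theorem rList_append (l₁ l₂ : List (ℝ × Fr n)) : rList (l₁ ++ l₂) = rList l₁ ++ rList l₂ := by
  induction l₁ with
  | nil => rfl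
  | cons p l ih => rw [List.cons_append, rList, rList, ih, List.append_assoc]

theorem dDel_append (θ : Shape n) (a : Fr n) (L₁ L₂ : List (DEnt n)) :
    dDel θ a (L₁ ++ L₂) = dDel θ a L₁ ++ dDel θ (endFr a L₁) L₂ := by
  induction L₁ generalizing a with
  | nil => rfl
  | cons e L ih => rw [List.cons_append, dDel, dDel, ih, endFr, List.append_assoc]

theorem c2g_dDel_disc_cons (θ : Shape n) (a : Fr n) (p : ℝ × Fr n) (l : List (ℝ × Fr n)) :
    dDel θ a (disc (p :: l)) =
      (by classical exact if IsBreak p.1 then [] else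
        [a (θ.getD ⌊p.1⌋₊ 0) - p.2 (θ.getD ⌊p.1⌋₊ 0)]) ++ dDel θ p.2 (disc l) := by
  classical
  rw [disc_cons, dDel]
  by_cases hb : IsBreak p.1
  · simp [discE, hb]
  · simp [discE, hb]

theorem rList_length (θ : Shape n) (a : Fr n) (l : List (ℝ × Fr n)) :
    (rList l).length = (dDel θ a (disc l)).length := by
  classical
  induction l generalizing a with
  | nil => rfl
  | cons p l ih =>
    rw [c2g_dDel_disc_cons, rList, List.length_append, List.length_append, ih p.2]
    by_cases hb : IsBreak p.1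
    · simp [hb]
    · simp [hb]

theorem itDeltas_eq_dDel (θ : Shape n) (S : ASt n) (l : List (ℝ × Fr n)) :
    itDeltas θ S l = dDel θ S.fr (disc l) := by
  classical
  induction l generalizing S with
  | nil => rfl
  | cons p l ih =>
    rw [c2g_dDel_disc_cons, itDeltas, ih]
    rfl

theorem runIt_fr (θ : Shape n) (S : ASt n) (l : List (ℝ × Fr n)) :
    (runIt θ S l).fr = endFr S.fr (disc l) := by
  induction l generalizing S with
  | nil => rfl
  | cons p l ih =>
    rw [runIt, ih]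
    rfl

theorem c2g_val_floor (θ : Shape n) {τ : ℝ} (h0 : 0 ≤ τ) :
    θ.val τ = θ.val (⌊τ⌋₊ : ℝ) + (τ - (⌊τ⌋₊ : ℝ)) • θ.getD ⌊τ⌋₊ 0 :=
  θ.val_piece ⌊τ⌋₊ (Nat.floor_le h0) (Nat.lt_floor_add_one τ).le

theorem c2g_break_floor {τ : ℝ} (h0 : 0 ≤ τ) (hb : IsBreak τ) : ((⌊τ⌋₊ : ℕ) : ℝ) = τ := by
  obtain ⟨k, rfl⟩ := hb
  have hk : 0 ≤ k := by exact_mod_cast h0
  lift k to ℕ using hk
  simp

theorem runIt_c (θ : Shape n) (S : ASt n) (l : List (ℝ × Fr n)) (h0 : ∀ p ∈ l, 0 ≤ p.1) :
    (runIt θ S l).c = S.c + dC θ S.fr (disc l) + lcomb (rList l) (dDel θ S.fr (disc l)) := by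
  classical
  induction l generalizing S with
  | nil => simp [runIt, disc, dC, rList, lcomb_nil_left]
  | cons p l ih =>
    have hp := h0 p (List.mem_cons_self ..)
    rw [runIt, ih _ fun q hq => h0 q (List.mem_cons_of_mem _ hq), c2g_dDel_disc_cons, rList,
      disc_cons, dC]
    have e1 : (S.jump θ p.1 p.2).fr = p.2 := rfl
    have e2 : (S.jump θ p.1 p.2).c = S.c + S.fr (θ.val p.1) - p.2 (θ.val p.1) := rfl
    have e3 : (discE p).2.2 = p.2 := rfl
    have e4 : (discE p).1 = ⌊p.1⌋₊ := rfl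
    rw [e1, e2, e3, e4]
    by_cases hb : IsBreak p.1
    · rw [if_pos hb, if_pos hb, List.nil_append, List.nil_append, c2g_break_floor hp hb]
      abel
    · rw [if_neg hb, if_neg hb, List.singleton_append, List.singleton_append, lcomb_cons,
        c2g_val_floor θ hp, map_add, map_add, map_smul, map_smul, smul_sub]
      abel

theorem itAll_of_split (θ : Shape n) (P : ASt n → ℝ → Fr n → Prop) (S : ASt n)
    (l : List (ℝ × Fr n)) (h : ∀ l₁ p l₂, l = l₁ ++ p :: l₂ → P (runIt θ S l₁) p.1 p.2) :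
    itAll θ P S l := by
  induction l generalizing S with
  | nil => trivial
  | cons p l ih =>
    refine ⟨h [] p l rfl, ih _ fun l₁ q l₂ hl => ?_⟩
    exact h (p :: l₁) q l₂ (by rw [hl]; rfl)

theorem itPos_eq_runIt (θ : Shape n) (S : ASt n) (l : List (ℝ × Fr n))
    (hs : l.Pairwise (fun p q => p.1 ≤ q.1)) {t : ℝ} (ht : ∀ p ∈ l, p.1 ≤ t) :
    itPos θ S l t = (runIt θ S l).pos θ t := by
  induction l generalizing S with
  | nil => rfl
  | cons p l ih =>
    rw [List.pairwise_cons] at hs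
    rw [itPos_cons_ge θ S p l hs.1 (ht p (List.mem_cons_self ..)), runIt]
    exact ih _ hs.2 fun q hq => ht q (List.mem_cons_of_mem _ hq)

/-- BALANCE -/
theorem itPos_end_eq (θ : Shape n) (S : ASt n) (l : List (ℝ × Fr n))
    (hs : l.Pairwise (fun p q => p.1 ≤ q.1)) (ht : ∀ p ∈ l, 0 ≤ p.1 ∧ p.1 ≤ (θ.length : ℝ)) :
    itPos θ S l θ.length =
      S.c + dB θ S.fr (disc l) + lcomb (rList l) (dDel θ S.fr (disc l)) := by
  rw [itPos_eq_runIt θ S l hs fun p hp => (ht p hp).2, ASt.pos, runIt_c θ S l fun p hp => (ht p hp).1,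
    runIt_fr, θ.val_ge le_rfl, dB]
  abel

/-- SITE FORMULA -/
theorem site_formula (θ : Shape n) (S : ASt n) (l₁ : List (ℝ × Fr n)) (p : ℝ × Fr n)
    (l₂ : List (ℝ × Fr n)) (h0 : ∀ q ∈ l₁ ++ p :: l₂, 0 ≤ q.1)
    (hInd : IndepL (dDel θ S.fr (disc (l₁ ++ p :: l₂)))) :
    (runIt θ S l₁).pos θ p.1 =
      S.c + famK θ S.fr (disc l₁) (discE p) +
        famA θ S.fr (disc l₁) (discE p) (disc l₂)
          (lcomb (rList (l₁ ++ p :: l₂)) (dDel θ S.fr (disc (l₁ ++ p :: l₂)))) := by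
  classical
  have hp : 0 ≤ p.1 := h0 p (by simp)
  have hd : disc (l₁ ++ p :: l₂) = disc l₁ ++ discE p :: disc l₂ := by
    rw [disc_append, disc_cons]
  have e3 : (discE p).2.2 = p.2 := rfl
  have e4 : (discE p).1 = ⌊p.1⌋₊ := rfl
  have hsplit : dDel θ S.fr (disc (l₁ ++ p :: l₂)) = dDel θ S.fr (disc l₁) ++
      ((if IsBreak p.1 then [] else [endFr S.fr (disc l₁) (θ.getD ⌊p.1⌋₊ 0) -
        p.2 (θ.getD ⌊p.1⌋₊ 0)]) ++ dDel θ p.2 (disc l₂)) := by
    rw [disc_append, dDel_append, c2g_dDel_disc_cons]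
  have hUs : famUs θ S.fr (disc l₁) (discE p) (disc l₂) = dDel θ S.fr (disc l₁) ++
      ((if IsBreak p.1 then [] else [endFr S.fr (disc l₁) (θ.getD ⌊p.1⌋₊ 0)]) ++
        List.replicate (dDel θ p.2 (disc l₂)).length 0) := by
    unfold famUs
    rw [e3, e4]
    by_cases hb : IsBreak p.1
    · simp [discE, hb]
    · simp [discE, hb]
  have hlen : (famUs θ S.fr (disc l₁) (discE p) (disc l₂)).length =
      (dDel θ S.fr (disc l₁ ++ discE p :: disc l₂)).length := by
    rw [← hd, hUs, hsplit]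
    by_cases hb : IsBreak p.1
    · simp [hb]
    · simp [hb]
  rw [famA, lcomb_map, hd, linExt_spec (hd ▸ hInd) hlen, hUs, rList_append, rList,
    lcomb_append (rList_length θ S.fr l₁), ASt.pos, runIt_c θ S l₁ fun q hq => h0 q (by simp [hq]),
    runIt_fr, famK, e4]
  by_cases hb : IsBreak p.1
  · rw [if_pos hb, if_pos hb, List.nil_append, List.nil_append, lcomb_replicate_zero,
      c2g_break_floor hp hb]
    abel
  · rw [if_neg hb, if_neg hb, List.singleton_append, List.singleton_append, lcomb_cons,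
      lcomb_replicate_zero, c2g_val_floor θ hp, map_add, map_smul]
    abel

end Claimed.Agent.R282
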