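import Claimed.Agent.R282.S2C.G.FamFin
import Claimed.Agent.R282.S2C.G.FamFun

/-!
# 2C / BP-G1: generic endpoints (paper: the two paragraphs after Lemma "Area variation")

CLAIM: for a regular shape there are finitely many proper affine functionals on `(lam, xi)` such that, off
their zero sets, every itinerary in normal form from `lam` to `W xi` whose non-break velocity differences
`δ_j` are independent satisfies: (i) the `δ_j` span all roots; (ii) all jump sites are off the walls.

DISCRETE DATA `𝔡` of an itinerary in normal form: the frames `(a_0, …, a_k)` (in `W`), the floors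
`f_j = ⌊τ_j⌋₊ < T`, the flags `b_j = [τ_j is a break]`, the end frame `g ∈ W`.  `k ≤ n + T`: at most `n`
non-break sites (independent vectors in `Vec n`), at most `T` break sites (distinct integers in `(0,T)`).
So `𝔡` ranges over a FINITE set (lists of bounded length over finite sets; `W` finite).
BALANCE (`itPos_formula` at `t = T`, `Shape.val_piece`):
   `g xi - lam = B(𝔡) + ∑_{j non-break} r_j δ_j(𝔡)`,   `r_j = τ_j - f_j ∈ (0,1)`,
   `δ_j(𝔡) = (a_{j-1} - a_j) θ_{f_j}`,  `B(𝔡) = a_k μ - ∑_j (a_j - a_{j-1}) η(f_j)`.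
(i) if `M = span δ_j(𝔡)` does not contain all roots, choose `ν ∈ span roots`, `ν ≠ 0`, `ν ⊥ M`
    (orthogonal complement inside `span roots ⊔ M`…; e.g. `ν` = component of a root `β ∉ M` orthogonal to `M`,
    note `M ⊆ span roots`).  Functional `f(lam, xi) = (g⁻¹ν)·xi - ν·lam - ν·B`.  It vanishes on the data.
    Proper: direction `(z₁, z₂) = (ν, 0)`: `Central ν 0 0` since `ν ⊥` centre; value `-ν·ν ≠ 0`.
(ii) if the `δ_j(𝔡)` are independent, the `r_j` are determined: `r_j = ℓ_j(g xi - lam - B)` for linear forms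
    `ℓ_j` (dual basis extended to `Vec n`).  Site position `y(τ_i) = lam + a_0 η(τ_i) + ∑_{j<i} (a_j - a_{j-1})(η τ_i - η τ_j)`
    is an affine function `lam + A_i(g xi - lam) + const`.  For a root `γ`:
    `f(lam, xi) = γ·(that)`.  Proper: direction `(z₁, z₂) = (γ, g⁻¹ γ)` keeps `g xi - lam`, changes `f` by `γ·γ = 2`;
    `Central γ 0 (g⁻¹γ)`: both are roots, orthogonal to the centre.
F = list of all these functionals over all `𝔡` (and roots `γ`, sites `i`).
ADVICE: avoid enumerating by hand: prove `Set.Finite {f | ∃ 𝔡 …, f = …}` and take `Set.Finite.toFinset.toList`;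
`AffF n` is in bijection with `Vec n × Vec n × ℝ`.
Size: ~1000 lines; split: balance + site formula (300) | finiteness of `𝔡` (200) | (i) (250) | (ii) (300).
-/

set_option autoImplicit false

namespace Claimed.Agent.R282.RDatum

variable {n : ℕ} (D : RDatum n)

/-- (G1) -/
theorem generic_family (θ : Shape n) (hθ : ∀ v ∈ θ, D.Reg v) :
    ∃ F : List (AffF n), (∀ f ∈ F, D.ProperF f) ∧
      ∀ lam xi : Vec n, (∀ f ∈ F, f.eval (lam, xi) ≠ 0) →
        ∀ u0 l, D.IsIt θ u0 l → IsNF θ u0 l →
          (∃ g ∈ D.W, itPos θ ⟨u0, lam⟩ l θ.length = g xi) →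
          IndepL (itDeltas θ ⟨u0, lam⟩ l) →
            (∀ β ∈ D.roots, β ∈ Submodule.span ℝ {x | x ∈ itDeltas θ ⟨u0, lam⟩ l}) ∧
              itAll θ (fun S t _ => D.OffWall (S.pos θ t)) ⟨u0, lam⟩ l := by
  classical
  have hfin : (D.famSet θ ∩ {f | D.ProperF f}).Finite := (D.famSet_finite θ).inter_of_left _
  refine ⟨hfin.toFinset.toList, ?_, ?_⟩
  · intro f hf
    rw [Finset.mem_toList, Set.Finite.mem_toFinset] at hf
    exact hf.2
  intro lam xi hF u0 l hIt hNF hend hInd
  obtain ⟨g, hg, hend⟩ := hend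
  have hF' : ∀ f ∈ D.famSet θ, D.ProperF f → f.eval (lam, xi) ≠ 0 := by
    intro f hf hp
    apply hF
    rw [Finset.mem_toList, Set.Finite.mem_toFinset]
    exact ⟨hf, hp⟩
  rw [itDeltas_eq_dDel] at hInd ⊢
  have hInd' : IndepL (dDel θ u0 (disc l)) := hInd
  have hL : disc l ∈ D.FamData θ := D.disc_mem_famData hIt hNF hInd'
  have hbal : g xi - lam - dB θ u0 (disc l) = lcomb (rList l) (dDel θ u0 (disc l)) := by
    rw [← hend, itPos_end_eq θ ⟨u0, lam⟩ l hIt.sorted hIt.times_mem]
    abel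
  constructor
  · by_contra hcon
    push Not at hcon
    obtain ⟨β, hβ, hn⟩ := hcon
    have hν : ∃ ν, D.IsNu (dDel θ u0 (disc l)) ν :=
      D.exists_isNu (fun z hz => D.dDel_centre θ hz hIt.u0_mem fun e he => (hL.2 e he).2) hβ hn
    refine hF' (D.famI θ u0 g (disc l)) (Or.inl ⟨u0, hIt.u0_mem, g, hg, _, hL, rfl⟩)
      (D.famI_proper θ u0 g _ hν) ?_
    rw [D.famI_eval θ u0 hg, hbal]
    exact dot_lcomb_eq_zero (D.nuOf_spec hν).2.1 _
  · apply itAll_of_split
    intro l₁ p l₂ hl γ hγ h0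
    subst hl
    have hd : disc (l₁ ++ p :: l₂) = disc l₁ ++ discE p :: disc l₂ := by
      rw [disc_append, disc_cons]
    refine hF' (famII θ u0 g (disc l₁) (discE p) (disc l₂) γ)
      (Or.inr ⟨u0, hIt.u0_mem, g, hg, _, _, _, hd ▸ hL, γ, hγ, rfl⟩)
      (D.famII_proper θ u0 hg _ _ _ hγ) ?_
    rw [D.famII_eval θ u0 hg, ← hd, hbal, dot_comm, ← h0]
    congr 1
    exact (site_formula θ ⟨u0, lam⟩ l₁ p l₂ (fun q hq => (hIt.times_mem q hq).1) hInd').symm

end Claimed.Agent.R282.RDatum
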