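import Claimed.Agent.R282.S2C.B.Dot

/-!
# 2C / L-G2: a relatively open set is not covered by finitely many proper affine hyperplanes

PLAN.  Induction on `F`.  Claim for the induction: `∃ p ∈ O, Central p ∧ ∀ f ∈ F, f.eval p ≠ 0`.
Step `f :: F`: take `p` for `F`.  If `f.eval p ≠ 0` done.  Otherwise let `(z₁, z₂)` be the direction of
`ProperF f`, `p_ε = p + ε (z₁, z₂)`.  `Central` is preserved (`Central z₁ 0 z₂` is the homogeneous
equation; `dot_add_right`, `dot_smul_right`).  `f.eval p_ε = ε (f.a·z₁ + f.b·z₂) ≠ 0` for `ε ≠ 0`.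
`p_ε ∈ O` and `f'.eval p_ε ≠ 0` (`f' ∈ F`) for all small `ε` : these are finitely many open conditions
holding at `ε = 0`: use `Filter.Eventually` in `𝓝[≠] 0` (`ContinuousAt.eventually_ne`,
`IsOpen.mem_nhds`, `Filter.eventually_all_finset`/induction over the list), and `𝓝[≠] (0:ℝ)` is `NeBot`.
Size: ~150 lines.
-/

set_option autoImplicit false

namespace Claimed.Agent.R282.RDatum

variable {n : ℕ} (D : RDatum n)

theorem g2_eval_line (g : AffF n) (p : Vec n × Vec n) (z₁ z₂ : Vec n) (ε : ℝ) :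
    g.eval (p + ε • (z₁, z₂)) = g.eval p + ε * (dot g.a z₁ + dot g.b z₂) := by
  simp only [AffF.eval, Prod.fst_add, Prod.snd_add, Prod.smul_fst, Prod.smul_snd, dot_add_right,
    dot_smul_right]
  ring

/-- (G2) -/
theorem exists_generic (F : List (AffF n)) (hF : ∀ f ∈ F, D.ProperF f) (mu : Vec n)
    (O : Set (Vec n × Vec n)) (hO : IsOpen O) (hne : ∃ p ∈ O, D.Central p.1 mu p.2) :
    ∃ p ∈ O, D.Central p.1 mu p.2 ∧ ∀ f ∈ F, f.eval p ≠ 0 := by
  induction F with
  | nil =>
    obtain ⟨p, hp, hc⟩ := hne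
    exact ⟨p, hp, hc, by simp⟩
  | cons f F ih =>
    obtain ⟨p, hp, hc, hfp⟩ := ih (fun g hg => hF g (List.mem_cons_of_mem _ hg))
    obtain ⟨z₁, z₂, hz, hB⟩ := hF f List.mem_cons_self
    have hγc : Continuous fun ε : ℝ => p + ε • ((z₁, z₂) : Vec n × Vec n) := by fun_prop
    have h1 : ∀ᶠ ε in nhds (0 : ℝ), p + ε • ((z₁, z₂) : Vec n × Vec n) ∈ O := by
      refine hγc.continuousAt.eventually_mem (hO.mem_nhds ?_)
      simpa using hp
    have haff : ∀ g : AffF n, g.eval p ≠ 0 →
        ∀ᶠ ε in nhds (0 : ℝ), g.eval (p + ε • ((z₁, z₂) : Vec n × Vec n)) ≠ 0 := by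
      intro g hg
      have hc' : Continuous fun ε : ℝ => g.eval (p + ε • ((z₁, z₂) : Vec n × Vec n)) := by
        simp only [g2_eval_line]
        fun_prop
      refine hc'.continuousAt.eventually_ne ?_
      simpa using hg
    have h2 : ∀ᶠ ε in nhds (0 : ℝ), ∀ g ∈ F, g.eval (p + ε • ((z₁, z₂) : Vec n × Vec n)) ≠ 0 :=
      (Filter.eventually_all_finite (List.finite_toSet F)).2 fun g hg => haff g (hfp g hg)
    have h3 : ∀ᶠ ε in nhdsWithin (0 : ℝ) {0}ᶜ, f.eval (p + ε • ((z₁, z₂) : Vec n × Vec n)) ≠ 0 := by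
      by_cases h0 : f.eval p = 0
      · filter_upwards [self_mem_nhdsWithin] with ε hε
        rw [g2_eval_line, h0, zero_add]
        exact mul_ne_zero hε hB
      · exact (haff f h0).filter_mono nhdsWithin_le_nhds
    obtain ⟨ε, ⟨e1, e2⟩, e3⟩ :=
      (((h1.and h2).filter_mono nhdsWithin_le_nhds).and h3).exists
    refine ⟨p + ε • ((z₁, z₂) : Vec n × Vec n), e1, ?_, ?_⟩
    · intro z hzr
      have a1 := hc z hzr
      have a2 := hz z hzr
      rw [dot_zero_right, add_zero] at a2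
      simp only [Prod.fst_add, Prod.snd_add, Prod.smul_fst, Prod.smul_snd, dot_add_right,
        dot_smul_right]
      rw [a1, a2]
      ring
    · intro g hg
      rcases List.mem_cons.1 hg with rfl | hg
      · exact e3
      · exact e2 g hg

end Claimed.Agent.R282.RDatum
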